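import Vale.Agent.P050.R2.H545.HubC2

/-!
# P050: the balance of the ordered chordal laws, with a constant loss
-/

namespace Vale.Agent.P050.Books

open Finset

/-- THE BALANCE for ordered laws: `s a` earlier neighbours, `J a` the vertices joined to `a` from
outside, `k` the loss. -/
theorem balanceO {V : Type} [DecidableEq V] (d : ℕ → ℝ) (d0 : d 0 = 0) (d1 : d 1 = 0) (M : ℕ)
    (hd : ∀ k, k + 2 ≤ M + 1 → 2 * d (k + 1) ≤ d k + d (k + 2)) (A₀ Z W : Finset V)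
    (s q t c : V → ℕ) (N J : V → Finset V) (hs : ∀ a ∈ A₀, s a ≤ M) (hZ : ∀ z ∈ Z, q z ≤ M + 1)
    (hN : ∀ w ∈ W, ∀ z ∈ N w, c w ≤ q z ∧ q z ≤ M + 1)
    (hJ : ∀ a ∈ A₀, ∀ z ∈ J a, 1 ≤ q z ∧ q z ≤ M + 1)
    (ht : ∀ w ∈ W, c w ≤ t w ∧ t w ≤ M + 1) (k : ℝ)
    (hle : ∀ m, 2 ≤ m → ((A₀.filter fun a => m ≤ s a + 1).card : ℝ) +
      ∑ w ∈ W, ((min (c w) (t w + 1 - m) : ℕ) : ℝ) / c w ≤
      k + ∑ z ∈ Z, ((q z + 1 - m : ℕ) : ℝ) +
        ∑ a ∈ A₀, (((J a).filter fun z => m ≤ q z).card : ℝ) +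
        ∑ w ∈ W, ∑ z ∈ N w, ((min (c w) (q z + 1 - m) : ℕ) : ℝ) / c w) :
    -(k * (d (M + 1) - d M)) ≤ ∑ a ∈ A₀, (d (s a) - d (s a + 1)) + ∑ z ∈ Z, d (q z) +
      ∑ a ∈ A₀, ∑ z ∈ J a, (d (q z) - d (q z - 1)) +
      ∑ w ∈ W, (∑ z ∈ N w, (d (q z) - d (q z - c w)) - (d (t w) - d (t w - c w))) / c w := by
  let ε : ℕ → ℝ := fun j => d (j + 2) - 2 * d (j + 1) + d j
  have hε : ∀ j ∈ range M, 0 ≤ ε j := by
    intro j hj
    have := hd j (by have := mem_range.1 hj; omega)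
    show 0 ≤ d (j + 2) - 2 * d (j + 1) + d j
    linarith
  have h0 : ∑ a ∈ A₀, (d (s a) - d (s a + 1)) =
      ∑ j ∈ range M, ε j * (-((A₀.filter fun a => j + 2 ≤ s a + 1).card : ℝ)) := by
    have e1 : ∀ a ∈ A₀, d (s a) - d (s a + 1) = ∑ j ∈ range M, ε j *
        (-((if j + 2 ≤ s a + 1 then 1 else 0 : ℕ) : ℝ)) := by
      intro a ha
      rw [← neg_sub, seq_inc d d0 d1 M (s a) (hs a ha), ← Finset.sum_neg_distrib]
      exact Finset.sum_congr rfl fun j _ => by ring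
    rw [Finset.sum_congr rfl e1, Finset.sum_comm]
    refine Finset.sum_congr rfl fun j _ => ?_
    rw [← Finset.mul_sum, Finset.sum_neg_distrib, Finset.card_filter, Nat.cast_sum]
  have h1 : ∑ z ∈ Z, d (q z) =
      ∑ j ∈ range M, ε j * ∑ z ∈ Z, ((q z + 1 - (j + 2) : ℕ) : ℝ) := by
    rw [Finset.sum_congr rfl fun z hz => seq_val d d0 d1 M (q z) (hZ z hz), Finset.sum_comm]
    exact Finset.sum_congr rfl fun j _ => (Finset.mul_sum _ _ _).symm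
  have h2 : ∀ w ∈ W, (∑ z ∈ N w, (d (q z) - d (q z - c w)) - (d (t w) - d (t w - c w))) / c w =
      ∑ j ∈ range M, ε j * (∑ z ∈ N w, ((min (c w) (q z + 1 - (j + 2)) : ℕ) : ℝ) / c w -
        ((min (c w) (t w + 1 - (j + 2)) : ℕ) : ℝ) / c w) := by
    intro w hw
    rw [Finset.sum_congr rfl fun z hz => seq_dif d d0 d1 M (q z) (c w) (hN w hw z hz).2
      (hN w hw z hz).1, Finset.sum_comm, seq_dif d d0 d1 M (t w) (c w) (ht w hw).2 (ht w hw).1,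
      ← Finset.sum_sub_distrib, Finset.sum_div]
    refine Finset.sum_congr rfl fun j _ => ?_
    rw [← Finset.mul_sum, ← mul_sub, mul_div_assoc, sub_div, Finset.sum_div]
  have h3 : ∀ a ∈ A₀, ∑ z ∈ J a, (d (q z) - d (q z - 1)) =
      ∑ j ∈ range M, ε j * (((J a).filter fun z => j + 2 ≤ q z).card : ℝ) := by
    intro a ha
    have e1 : ∀ z ∈ J a, d (q z) - d (q z - 1) = ∑ j ∈ range M, ε j *
        ((if j + 2 ≤ q z then 1 else 0 : ℕ) : ℝ) := by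
      intro z hz
      rw [seq_dif d d0 d1 M (q z) 1 (hJ a ha z hz).2 (hJ a ha z hz).1]
      refine Finset.sum_congr rfl fun j _ => ?_
      have e2 : min 1 (q z + 1 - (j + 2)) = if j + 2 ≤ q z then 1 else 0 := by
        split_ifs <;> omega
      rw [e2]
    rw [Finset.sum_congr rfl e1, Finset.sum_comm]
    refine Finset.sum_congr rfl fun j _ => ?_
    rw [← Finset.mul_sum, Finset.card_filter, Nat.cast_sum]
  have h5 : ∀ M, ∑ j ∈ range M, ε j = d (M + 1) - d M := by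
    intro M
    induction M with
    | zero => simp [d0, d1]
    | succ M ih =>
      rw [Finset.sum_range_succ, ih]
      show d (M + 1) - d M + (d (M + 2) - 2 * d (M + 1) + d M) = d (M + 1 + 1) - d (M + 1)
      ring
  have h6 : -(k * (d (M + 1) - d M)) = ∑ j ∈ range M, ε j * (-k) := by
    rw [← h5, ← Finset.sum_mul]
    ring
  rw [h6, h0, h1, Finset.sum_congr rfl h2, Finset.sum_congr rfl h3, Finset.sum_comm (s := W),
    Finset.sum_comm (s := A₀), ← Finset.sum_add_distrib, ← Finset.sum_add_distrib,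
    ← Finset.sum_add_distrib]
  refine Finset.sum_le_sum fun j hj => ?_
  have h4 := hle (j + 2) (by omega)
  rw [← Finset.mul_sum, ← Finset.mul_sum, ← mul_add, ← mul_add, ← mul_add]
  refine mul_le_mul_of_nonneg_left ?_ (hε j hj)
  rw [Finset.sum_sub_distrib]
  linarith

/-- The balance without loss. -/
theorem balanceO_zero {V : Type} [DecidableEq V] (d : ℕ → ℝ) (d0 : d 0 = 0) (d1 : d 1 = 0)
    (M : ℕ) (hd : ∀ k, k + 2 ≤ M + 1 → 2 * d (k + 1) ≤ d k + d (k + 2)) (A₀ Z W : Finset V)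
    (s q t c : V → ℕ) (N J : V → Finset V) (hs : ∀ a ∈ A₀, s a ≤ M) (hZ : ∀ z ∈ Z, q z ≤ M + 1)
    (hN : ∀ w ∈ W, ∀ z ∈ N w, c w ≤ q z ∧ q z ≤ M + 1)
    (hJ : ∀ a ∈ A₀, ∀ z ∈ J a, 1 ≤ q z ∧ q z ≤ M + 1)
    (ht : ∀ w ∈ W, c w ≤ t w ∧ t w ≤ M + 1)
    (hle : ∀ m, 2 ≤ m → ((A₀.filter fun a => m ≤ s a + 1).card : ℝ) +
      ∑ w ∈ W, ((min (c w) (t w + 1 - m) : ℕ) : ℝ) / c w ≤
      ∑ z ∈ Z, ((q z + 1 - m : ℕ) : ℝ) +
        ∑ a ∈ A₀, (((J a).filter fun z => m ≤ q z).card : ℝ) +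
        ∑ w ∈ W, ∑ z ∈ N w, ((min (c w) (q z + 1 - m) : ℕ) : ℝ) / c w) :
    0 ≤ ∑ a ∈ A₀, (d (s a) - d (s a + 1)) + ∑ z ∈ Z, d (q z) +
      ∑ a ∈ A₀, ∑ z ∈ J a, (d (q z) - d (q z - 1)) +
      ∑ w ∈ W, (∑ z ∈ N w, (d (q z) - d (q z - c w)) - (d (t w) - d (t w - c w))) / c w := by
  have h := balanceO d d0 d1 M hd A₀ Z W s q t c N J hs hZ hN hJ ht 0 (by simpa using hle)
  simpa using h

end Vale.Agent.P050.Books
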